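import Mathlib

set_option autoImplicit false

/-!
# Block sensitivity and sensitivity under composition
-/

namespace Vale.Agent.BS

variable {ι κ : Type}

/-- Flip the coordinates of `B`. -/
def flp [DecidableEq ι] (x : ι → Bool) (B : Finset ι) : ι → Bool :=
  fun i => if i ∈ B then !(x i) else x i

/-- The sensitivity at `x`: the number of coordinates whose flip changes the value. -/
def sensAt [Fintype ι] [DecidableEq ι] (f : (ι → Bool) → Bool) (x : ι → Bool) : ℕ :=
  (Finset.univ.filter (fun a => f (flp x {a}) ≠ f x)).card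

/-- The sensitivity of `f`: the maximum over all inputs. -/
def sens [Fintype ι] [DecidableEq ι] (f : (ι → Bool) → Bool) : ℕ :=
  Finset.univ.sup (sensAt f)

/-- There are `m` pairwise disjoint blocks at `x` whose flip changes the value of `f`.
Such blocks are automatically nonempty. -/
def HasBlocks [DecidableEq ι] (f : (ι → Bool) → Bool) (x : ι → Bool) (m : ℕ) : Prop :=
  ∃ B : Fin m → Finset ι, (∀ j j', j ≠ j' → Disjoint (B j) (B j')) ∧ ∀ j, f (flp x (B j)) ≠ f x

/-- Complement of all bits. -/
def cmpl (x : ι → Bool) : ι → Bool := fun i => !(x i)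

/-- `f` is self-dual: complementing the input complements the value. -/
def SelfDual (f : (ι → Bool) → Bool) : Prop := ∀ x, f (cmpl x) = !(f x)

/-- Composition with disjoint blocks of variables. -/
def comp (g : (κ → Bool) → Bool) (h : (ι → Bool) → Bool) : (κ × ι → Bool) → Bool :=
  fun Y => g (fun k => h (fun a => Y (k, a)))

theorem flp_cmpl [DecidableEq ι] (x : ι → Bool) (B : Finset ι) :
    flp (cmpl x) B = cmpl (flp x B) := by
  funext i
  simp only [flp, cmpl]
  split_ifs <;> rfl

theorem cmpl_cmpl (x : ι → Bool) : cmpl (cmpl x) = x := by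
  funext i
  simp [cmpl]

theorem bool_ne_not {a b : Bool} (h : a ≠ b) : a = !b := by
  cases a <;> cases b <;> simp_all

theorem le_sens [Fintype ι] [DecidableEq ι] (f : (ι → Bool) → Bool) (x : ι → Bool) :
    sensAt f x ≤ sens f :=
  Finset.le_sup (f := sensAt f) (Finset.mem_univ x)

theorem comp_selfDual {g : (κ → Bool) → Bool} {h : (ι → Bool) → Bool}
    (hg : SelfDual g) (hh : SelfDual h) : SelfDual (comp g h) := by
  intro Y
  show g (fun k => h (fun a => cmpl Y (k, a))) = !(g (fun k => h (fun a => Y (k, a))))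
  rw [← hg]
  congr 1
  funext k
  exact hh (fun a => Y (k, a))

theorem comp_blocks [DecidableEq κ] [DecidableEq ι] {g : (κ → Bool) → Bool} {h : (ι → Bool) → Bool}
    (hh : SelfDual h) {y0 : κ → Bool} {x0 : ι → Bool} {M m : ℕ}
    (hg : HasBlocks g y0 M) (hb : HasBlocks h x0 m) :
    ∃ Y0, HasBlocks (comp g h) Y0 (M * m) := by
  obtain ⟨BB, hBBd, hBBc⟩ := hg
  obtain ⟨B, hBd, hBc⟩ := hb
  let z : κ → (ι → Bool) := fun k => if y0 k = h x0 then x0 else cmpl x0
  have hz : ∀ k, h (z k) = y0 k := by
    intro k
    by_cases hk : y0 k = h x0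
    · simp [z, hk]
    · simp only [z, if_neg hk, hh x0]
      exact (bool_ne_not hk).symm
  have hzB : ∀ k i, h (flp (z k) (B i)) = !(y0 k) := by
    intro k i
    rw [← hz k]
    apply bool_ne_not
    by_cases hk : y0 k = h x0
    · simp only [z, if_pos hk]
      exact hBc i
    · simp only [z, if_neg hk, flp_cmpl]
      rw [hh (flp x0 (B i)), hh x0]
      simpa using hBc i
  refine ⟨fun p => z p.1 p.2,
    fun q => BB (finProdFinEquiv.symm q).1 ×ˢ B (finProdFinEquiv.symm q).2, ?_, ?_⟩
  · intro q q' hne
    have hne' : finProdFinEquiv.symm q ≠ finProdFinEquiv.symm q' :=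
      fun h0 => hne (finProdFinEquiv.symm.injective h0)
    rw [Finset.disjoint_product]
    by_cases h1 : (finProdFinEquiv.symm q).1 = (finProdFinEquiv.symm q').1
    · right
      apply hBd
      intro h2
      exact hne' (Prod.ext h1 h2)
    · left
      exact hBBd _ _ h1
  · intro q
    set j := (finProdFinEquiv.symm q).1
    set i := (finProdFinEquiv.symm q).2
    show g (fun k => h (fun a => flp (fun p : κ × ι => z p.1 p.2) (BB j ×ˢ B i) (k, a))) ≠
      g (fun k => h (fun a => z k a))
    have e1 : (fun k => h (fun a => z k a)) = y0 := funext hz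
    have e2 : (fun k => h (fun a => flp (fun p : κ × ι => z p.1 p.2) (BB j ×ˢ B i) (k, a))) =
        flp y0 (BB j) := by
      funext k
      by_cases hk : k ∈ BB j
      · have : (fun a => flp (fun p : κ × ι => z p.1 p.2) (BB j ×ˢ B i) (k, a)) = flp (z k) (B i) := by
          funext a
          simp [flp, hk]
        rw [this, hzB]
        simp [flp, hk]
      · have : (fun a => flp (fun p : κ × ι => z p.1 p.2) (BB j ×ˢ B i) (k, a)) = z k := by
          funext a
          simp [flp, hk]
        rw [this, hz]
        simp [flp, hk]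
    rw [e1, e2]
    exact hBBc j

theorem comp_sensAt_le [Fintype κ] [DecidableEq κ] [Fintype ι] [DecidableEq ι]
    (g : (κ → Bool) → Bool) (h : (ι → Bool) → Bool) (Y : κ × ι → Bool) :
    sensAt (comp g h) Y ≤ sens g * sens h := by
  let inner : κ → ι → Bool := fun k a => Y (k, a)
  let outer : κ → Bool := fun k => h (inner k)
  let T : Finset κ := Finset.univ.filter (fun k => g (flp outer {k}) ≠ g outer)
  let U : κ → Finset (κ × ι) := fun k =>
    (Finset.univ.filter (fun a => h (flp (inner k) {a}) ≠ h (inner k))).image (fun a => (k, a))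
  have hsub : Finset.univ.filter (fun p : κ × ι => comp g h (flp Y {p}) ≠ comp g h Y) ⊆
      T.biUnion U := by
    rintro ⟨k, a⟩ hp
    have hp' : comp g h (flp Y {(k, a)}) ≠ comp g h Y := (Finset.mem_filter.mp hp).2
    have e1 : ∀ k', (fun a' => flp Y {(k, a)} (k', a')) =
        if k' = k then flp (inner k) {a} else inner k' := by
      intro k'
      funext a'
      by_cases hk : k' = k
      · subst hk
        simp [flp, inner]
      · simp [flp, inner, hk]
    by_cases hs : h (flp (inner k) {a}) = h (inner k)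
    · exfalso
      apply hp'
      show g (fun k' => h (fun a' => flp Y {(k, a)} (k', a'))) = g (fun k' => h (fun a' => Y (k', a')))
      congr 1
      funext k'
      rw [e1]
      split_ifs with hk
      · subst hk
        exact hs
      · rfl
    · refine Finset.mem_biUnion.mpr ⟨k, ?_, ?_⟩
      · refine Finset.mem_filter.mpr ⟨Finset.mem_univ _, ?_⟩
        have e2 : (fun k' => h (fun a' => flp Y {(k, a)} (k', a'))) = flp outer {k} := by
          funext k'
          rw [e1]
          by_cases hk : k' = k
          · subst hk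
            rw [if_pos rfl, bool_ne_not hs]
            simp [flp, outer]
          · rw [if_neg hk]
            simp [flp, outer, hk]
        intro heq
        apply hp'
        show g (fun k' => h (fun a' => flp Y {(k, a)} (k', a'))) = g outer
        rw [e2]
        exact heq
      · exact Finset.mem_image.mpr ⟨a, Finset.mem_filter.mpr ⟨Finset.mem_univ _, hs⟩, rfl⟩
  calc sensAt (comp g h) Y ≤ (T.biUnion U).card := Finset.card_le_card hsub
    _ ≤ T.card * sens h := Finset.card_biUnion_le_card_mul _ _ _
        (fun k _ => Finset.card_image_le.trans (le_sens h (inner k)))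
    _ ≤ sens g * sens h := Nat.mul_le_mul_right _ (le_sens g outer)

theorem comp_sens_le [Fintype κ] [DecidableEq κ] [Fintype ι] [DecidableEq ι]
    (g : (κ → Bool) → Bool) (h : (ι → Bool) → Bool) :
    sens (comp g h) ≤ sens g * sens h :=
  Finset.sup_le (fun Y _ => comp_sensAt_le g h Y)

/-- Renaming of variables. -/
def reindex (e : ι ≃ κ) (f : (ι → Bool) → Bool) : (κ → Bool) → Bool :=
  fun y => f (fun i => y (e i))

theorem reindex_selfDual (e : ι ≃ κ) {f : (ι → Bool) → Bool} (hf : SelfDual f) :
    SelfDual (reindex e f) := fun y => hf (fun i => y (e i))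

theorem reindex_flp [DecidableEq ι] [DecidableEq κ] (e : ι ≃ κ) (y : κ → Bool) (B : Finset ι) :
    (fun i => flp y (B.map e.toEmbedding) (e i)) = flp (fun i => y (e i)) B := by
  funext i
  simp [flp]

theorem reindex_blocks [DecidableEq ι] [DecidableEq κ] (e : ι ≃ κ) {f : (ι → Bool) → Bool}
    {x : ι → Bool} {m : ℕ} (hb : HasBlocks f x m) :
    ∃ X, HasBlocks (reindex e f) X m := by
  obtain ⟨B, hd, hc⟩ := hb
  have hx : (fun i => (fun i' => x (e.symm i')) (e i)) = x := by
    funext i
    simp
  refine ⟨fun i' => x (e.symm i'), fun j => (B j).map e.toEmbedding, ?_, ?_⟩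
  · intro j j' hne
    rw [Finset.disjoint_map]
    exact hd _ _ hne
  · intro j
    show f (fun i => flp (fun i' => x (e.symm i')) ((B j).map e.toEmbedding) (e i)) ≠
      f (fun i => (fun i' => x (e.symm i')) (e i))
    rw [reindex_flp, hx]
    exact hc j

theorem reindex_sens [Fintype ι] [DecidableEq ι] [Fintype κ] [DecidableEq κ] (e : ι ≃ κ)
    (f : (ι → Bool) → Bool) : sens (reindex e f) ≤ sens f := by
  refine Finset.sup_le (fun y _ => ?_)
  refine le_trans (le_of_eq ?_) (le_sens f (fun i => y (e i)))
  unfold sensAt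
  refine Finset.card_equiv e.symm ?_
  intro a
  simp only [Finset.mem_filter, Finset.mem_univ, true_and]
  have h1 : (fun i => flp y {a} (e i)) = flp (fun i => y (e i)) {e.symm a} := by
    have := reindex_flp e y {e.symm a}
    rw [← this]
    simp
  show f (fun i => flp y {a} (e i)) ≠ f (fun i => y (e i)) ↔ _
  rw [h1]

/-- Powers of a self-dual function. -/
theorem amplify {n : ℕ} (f : (Fin n → Bool) → Bool) (hf : SelfDual f) {x : Fin n → Bool} {m : ℕ}
    (hb : HasBlocks f x m) (t : ℕ) :
    ∃ (N : ℕ) (F : (Fin N → Bool) → Bool), SelfDual F ∧ sens F ≤ sens f ^ (t + 1) ∧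
      ∃ X, HasBlocks F X (m ^ (t + 1)) := by
  induction t with
  | zero => exact ⟨n, f, hf, by simp, x, by simpa using hb⟩
  | succ t ih =>
      obtain ⟨N, F, hF1, hF2, X, hF3⟩ := ih
      refine ⟨N * n, reindex finProdFinEquiv (comp F f), ?_, ?_, ?_⟩
      · exact reindex_selfDual _ (comp_selfDual hF1 hf)
      · calc sens (reindex finProdFinEquiv (comp F f)) ≤ sens (comp F f) := reindex_sens _ _
          _ ≤ sens F * sens f := comp_sens_le _ _
          _ ≤ sens f ^ (t + 1) * sens f := Nat.mul_le_mul_right _ hF2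
          _ = sens f ^ (t + 1 + 1) := by ring
      · obtain ⟨Y0, hY⟩ := comp_blocks hf hF3 hb
        obtain ⟨X', hX'⟩ := reindex_blocks finProdFinEquiv hY
        refine ⟨X', ?_⟩
        have h2 : m ^ (t + 1) * m = m ^ (t + 1 + 1) := by ring
        rwa [h2] at hX'

/-- The self-dual extension of `f` by one variable. -/
def dualize (f : (ι → Bool) → Bool) : (Option ι → Bool) → Bool :=
  fun y => if y none then !(f (cmpl (fun i => y (some i)))) else f (fun i => y (some i))

theorem dualize_selfDual (f : (ι → Bool) → Bool) : SelfDual (dualize f) := by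
  intro y
  have e : (fun i => cmpl y (some i)) = cmpl (fun i => y (some i)) := rfl
  unfold dualize
  rw [e]
  cases hy : y none
  · simp [cmpl, hy, cmpl_cmpl]
  · simp [cmpl, hy]

theorem dualize_blocks [DecidableEq ι] {f : (ι → Bool) → Bool} {x : ι → Bool} {m : ℕ}
    (hb : HasBlocks f x m) : ∃ X, HasBlocks (dualize f) X m := by
  obtain ⟨B, hd, hc⟩ := hb
  let X : Option ι → Bool := fun o => o.elim false x
  have hX : ∀ j, flp X ((B j).map Function.Embedding.some) none = false := by
    intro j
    simp [flp, X]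
  have hX2 : ∀ j, (fun i => flp X ((B j).map Function.Embedding.some) (some i)) = flp x (B j) := by
    intro j
    funext i
    simp [flp, X]
  refine ⟨X, fun j => (B j).map Function.Embedding.some, ?_, ?_⟩
  · intro j j' hne
    rw [Finset.disjoint_map]
    exact hd _ _ hne
  · intro j
    unfold dualize
    rw [hX, hX2]
    simpa [X] using hc j

theorem dualize_sens [Fintype ι] [DecidableEq ι] (f : (ι → Bool) → Bool) :
    sens (dualize f) ≤ sens f + 1 := by
  refine Finset.sup_le (fun y _ => ?_)
  let x : ι → Bool := fun i => y (some i)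
  let z : ι → Bool := if y none then cmpl x else x
  have hsub : Finset.univ.filter (fun o : Option ι => dualize f (flp y {o}) ≠ dualize f y) ⊆
      insert none ((Finset.univ.filter (fun a => f (flp z {a}) ≠ f z)).map Function.Embedding.some) := by
    intro o ho
    cases o with
    | none => exact Finset.mem_insert_self _ _
    | some a =>
        apply Finset.mem_insert_of_mem
        refine Finset.mem_map.mpr ⟨a, ?_, rfl⟩
        have ho' := (Finset.mem_filter.mp ho).2
        refine Finset.mem_filter.mpr ⟨Finset.mem_univ _, ?_⟩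
        have e0 : flp y {some a} none = y none := by simp [flp]
        have e1 : (fun i => flp y {some a} (some i)) = flp x {a} := by
          funext i
          simp [flp, x]
        unfold dualize at ho'
        rw [e0, e1] at ho'
        by_cases hy : y none = true
        · simp only [hy, if_true, z] at ho' ⊢
          rw [flp_cmpl]
          intro heq
          exact ho' (by rw [heq])
        · simp only [hy, z] at ho' ⊢
          exact ho'
  calc sensAt (dualize f) y ≤ _ := Finset.card_le_card hsub
    _ ≤ _ := Finset.card_insert_le _ _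
    _ = sensAt f z + 1 := by rw [Finset.card_map]; rfl
    _ ≤ sens f + 1 := Nat.succ_le_succ (le_sens f z)

/-- Removal of the constant for self-dual functions. -/
theorem weak_selfDual
    (hweak : ∃ C : ℝ, ∀ (n : ℕ) (f : (Fin n → Bool) → Bool) (x : Fin n → Bool) (m : ℕ),
      HasBlocks f x m → (m : ℝ) ≤ C * (sens f : ℝ) ^ 2)
    {n : ℕ} (f : (Fin n → Bool) → Bool) (hf : SelfDual f) {x : Fin n → Bool} {m : ℕ}
    (hb : HasBlocks f x m) : m ≤ sens f ^ 2 := by
  obtain ⟨C, hC⟩ := hweak
  set D : ℝ := max C 0 with hD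
  have hD0 : 0 ≤ D := le_max_right _ _
  have hCD : ∀ (N : ℕ) (F : (Fin N → Bool) → Bool) (X : Fin N → Bool) (M : ℕ),
      HasBlocks F X M → (M : ℝ) ≤ D * (sens F : ℝ) ^ 2 := by
    intro N F X M h
    refine (hC N F X M h).trans ?_
    exact mul_le_mul_of_nonneg_right (le_max_left _ _) (by positivity)
  have key : ∀ t : ℕ, ((m : ℝ)) ^ (t + 1) ≤ D * (((sens f : ℝ)) ^ 2) ^ (t + 1) := by
    intro t
    obtain ⟨N, F, -, hF2, X, hF3⟩ := amplify f hf hb t
    have h1 := hCD N F X _ hF3
    have h2 : (sens F : ℝ) ≤ (sens f : ℝ) ^ (t + 1) := by exact_mod_cast hF2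
    have h3 : (sens F : ℝ) ^ 2 ≤ ((sens f : ℝ) ^ 2) ^ (t + 1) := by
      calc (sens F : ℝ) ^ 2 ≤ ((sens f : ℝ) ^ (t + 1)) ^ 2 :=
            pow_le_pow_left₀ (Nat.cast_nonneg _) h2 2
        _ = ((sens f : ℝ) ^ 2) ^ (t + 1) := by ring
    calc ((m : ℝ)) ^ (t + 1) = ((m ^ (t + 1) : ℕ) : ℝ) := by push_cast; rfl
      _ ≤ D * (sens F : ℝ) ^ 2 := h1
      _ ≤ _ := mul_le_mul_of_nonneg_left h3 hD0
  by_contra hcon
  have hcon' : sens f ^ 2 < m := not_le.mp hcon
  have hcon2 : ((sens f : ℝ)) ^ 2 < (m : ℝ) := by exact_mod_cast hcon'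
  by_cases hs : sens f = 0
  · have h0 := key 0
    rw [hs] at h0
    simp only [Nat.cast_zero, zero_add, pow_one] at h0
    rw [hs] at hcon2
    norm_num at h0
    norm_num at hcon2
    linarith
  · have hspos : 0 < ((sens f : ℝ)) ^ 2 := by
      have : 0 < (sens f : ℝ) := by exact_mod_cast Nat.pos_of_ne_zero hs
      positivity
    set r : ℝ := (m : ℝ) / (sens f : ℝ) ^ 2 with hr
    have hr1 : 1 < r := by
      rw [hr, one_lt_div hspos]
      exact hcon2
    obtain ⟨k, hk⟩ := pow_unbounded_of_one_lt D hr1
    have h1 := key k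
    have h2 : (m : ℝ) = r * (sens f : ℝ) ^ 2 := by
      rw [hr]
      field_simp
    rw [h2, mul_pow] at h1
    have h3 : 0 < (((sens f : ℝ)) ^ 2) ^ (k + 1) := pow_pos hspos _
    have h4 : r ^ (k + 1) ≤ D := le_of_mul_le_mul_right h1 h3
    have h5 : r ^ k < r ^ (k + 1) := pow_lt_pow_right₀ hr1 (Nat.lt_succ_self k)
    linarith

/-- Removal of the constant in general, at the price of one more unit of sensitivity. -/
theorem weak_general
    (hweak : ∃ C : ℝ, ∀ (n : ℕ) (f : (Fin n → Bool) → Bool) (x : Fin n → Bool) (m : ℕ),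
      HasBlocks f x m → (m : ℝ) ≤ C * (sens f : ℝ) ^ 2)
    {n : ℕ} (f : (Fin n → Bool) → Bool) {x : Fin n → Bool} {m : ℕ}
    (hb : HasBlocks f x m) : m ≤ (sens f + 1) ^ 2 := by
  obtain ⟨X, hX⟩ := dualize_blocks hb
  obtain ⟨X', hX'⟩ := reindex_blocks (finSuccEquiv n).symm hX
  have h1 := weak_selfDual hweak (reindex (finSuccEquiv n).symm (dualize f))
    (reindex_selfDual _ (dualize_selfDual f)) hX'
  have h2 : sens (reindex (finSuccEquiv n).symm (dualize f)) ≤ sens f + 1 :=
    (reindex_sens _ _).trans (dualize_sens f)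
  exact h1.trans (Nat.pow_le_pow_left h2 2)

end Vale.Agent.BS
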